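import Crest.Agent.X212.Hl33.Ang

/-!
# X212/Hl33/Trans (helper33): TRANS, the hierarchy is a germ along the plateau
-/

set_option autoImplicit false
set_option linter.unusedSectionVars false

open Set Filter Topology Function
open scoped ContDiff Manifold
open Crest.Agent.R208.F Crest.Agent.X212.Dr59 Crest.Agent.X212.Int54 Crest.Agent.X212.Cyl58
open Crest.Agent.X212.Sep15 (EE IR CM Box slab px Rg)
open Crest.Agent.X212.Bb31 (Fm Cy Df Pos)
open Crest.Agent.X212.Flo26 (SmV fl)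
open Crest.Agent.X212.Hel40 Crest.Agent.X212.Line51

noncomputable section

namespace Crest.Agent.X212.Hl33

variable {Y Y' : CM 3} {v : Vf Y} {v' : Vf Y'} {M M' W : Set Y}

theorem pre_sub (S : Pre v M M') : M ⊆ S.O := fun y hy => ((S.meq y).1 hy).1

theorem pre_cpt (S : Pre v M M') {ρ : ℝ} (h : ρ ≤ S.r) : IsCompact (S.B ρ) := by
  have h1 : S.B S.r ⊆ S.O := fun _ hy => hy.1
  have h2 := ((S.sp.continuousOn.prodMk S.sm.continuousOn).mono h1).preimage_isClosed_of_isClosed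
    S.cpt.isClosed ((isClosed_Iic (a := ρ)).prod (isClosed_Ici (a := -ρ)))
  refine (h2.isCompact).of_isClosed_subset ?_ ?_
  · convert h2 using 1
    ext y
    exact ⟨fun k => ⟨⟨k.1, k.2.1.trans h, (neg_le_neg h).trans k.2.2⟩, k.2⟩, fun k => ⟨k.1.1, k.2⟩⟩
  · exact fun y k => ⟨⟨k.1, k.2.1.trans h, (neg_le_neg h).trans k.2.2⟩, k.2⟩

theorem pre_small (S : Pre v M M') (hW : IsOpen W) (hM : M ⊆ W) :
    ∃ ρ > (0 : ℝ), ρ ≤ S.r ∧ S.B ρ ⊆ W := by
  obtain ⟨c, hc, h⟩ := (S.cpt.diff hW).exists_forall_le'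
    ((S.sp.continuousOn.sub S.sm.continuousOn).mono fun _ hy => hy.1.1) (a := 0) fun y hy => by
      have h1 := S.p0 y hy.1.1
      have h2 := S.m0 y hy.1.1
      refine not_le.1 fun e : S.tp y - S.tm y ≤ 0 => hy.2 (hM ((S.meq y).2 ⟨hy.1.1, ?_, ?_⟩)) <;>
        linarith
  refine ⟨min S.r (c / 3), lt_min S.rpos (by positivity), min_le_left _ _, fun y hy => ?_⟩
  by_contra e
  have h1 : c ≤ S.tp y - S.tm y := h y ⟨⟨hy.1, hy.2.1.trans (min_le_left _ _),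
    (neg_le_neg (min_le_left _ _)).trans hy.2.2⟩, e⟩
  have h2 := min_le_right S.r (c / 3)
  linarith [hy.2.1, hy.2.2]

variable {ι : PartialDiffeomorph (𝓡 3) (𝓡 3) Y Y' ∞}

theorem ev_left {y : Y} (hy : y ∈ ι.source) : ∀ᶠ z in 𝓝 y, ι.symm (ι z) = z := by
  filter_upwards [ι.open_source.mem_nhds hy] with z hz using ι.left_inv hz

theorem sm_at {y : Y} (hy : y ∈ ι.source) : ContMDiffAt (𝓡 3) (𝓡 3) ∞ ι y :=
  ι.contMDiffOn_toFun.contMDiffAt (ι.open_source.mem_nhds hy)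

theorem sm_symm {y : Y} (hy : y ∈ ι.source) : ContMDiffAt (𝓡 3) (𝓡 3) ∞ ι.symm (ι y) :=
  ι.contMDiffOn_invFun.contMDiffAt (ι.open_target.mem_nhds (ι.map_source hy))

theorem sm_push {E H N : Type*} [NormedAddCommGroup E] [NormedSpace ℝ E] [TopologicalSpace H]
    {I : ModelWithCorners ℝ E H} [TopologicalSpace N] [ChartedSpace H N] {f : Y → N} {y : Y}
    (hy : y ∈ ι.source) (hf : ContMDiffAt (𝓡 3) I ∞ f y) :
    ContMDiffAt (𝓡 3) I ∞ (f ∘ ι.symm) (ι y) :=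
  hf.comp_of_eq (sm_symm hy) (ι.left_inv hy)

theorem mf_push {E : Type*} [NormedAddCommGroup E] [NormedSpace ℝ E] [FiniteDimensional ℝ E]
    {f : Y → E} {y : Y} (hy : y ∈ ι.source) (hf : ContMDiffAt (𝓡 3) 𝓘(ℝ, E) ∞ f y) (w : EE 3) :
    mf (𝓡 3) 𝓘(ℝ, E) (f ∘ ι.symm) (ι y) (mf (𝓡 3) (𝓡 3) ι y w) = mf (𝓡 3) 𝓘(ℝ, E) f y w := by
  have h1 := mf_comp ((sm_push hy hf).mdifferentiableAt (by simp))
    ((sm_at hy).mdifferentiableAt (by simp))
  rw [mf_congr (f := (f ∘ ι.symm) ∘ ι) (g := f) ((ev_left hy).mono fun z hz => congrArg f hz)] at h1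
  rw [h1]
  rfl

theorem dr_push {f : Y → ℝ} {y : Y} (hy : y ∈ ι.source)
    (e : (v' (ι y) : EE 3) = mf (𝓡 3) (𝓡 3) ι y (v y)) (hf : ContMDiffAt (𝓡 3) 𝓘(ℝ, ℝ) ∞ f y) :
    dr (f ∘ ι.symm) v' (ι y) = dr f v y := by
  rw [dr, e]
  exact mf_push hy hf _

theorem rt_push {f : Y → Circle} {y : Y} (hy : y ∈ ι.source)
    (e : (v' (ι y) : EE 3) = mf (𝓡 3) (𝓡 3) ι y (v y)) (hf : ContMDiffAt (𝓡 3) (𝓡 1) ∞ f y) :
    rt (f ∘ ι.symm) v' (ι y) = rt f v y := by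
  have h1 := mf_push (f := fun z => (f z : ℂ)) hy ((contMDiff_coe _).comp y hf) (v y)
  rw [rt_eq, rt_eq, e, dc, dc, ← h1, comp_apply, show ι.symm (ι y) = y from ι.left_inv hy]
  rfl

theorem open_im {U : Set Y} (hU : IsOpen U) (h : U ⊆ ι.source) : IsOpen (ι '' U) :=
  ι.toOpenPartialHomeomorph.isOpen_image_of_subset_source hU h

theorem trans_pre (hW : IsOpen W) (hs : W ⊆ ι.source)
    (he : ∀ y ∈ W, (v' (ι y) : EE 3) = mf (𝓡 3) (𝓡 3) ι y (v y)) (S : Pre v M M') (hM : M ⊆ W)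
    (hC : S.Cd true) : ∃ S' : Pre v' (ι '' M) (ι '' M'), S'.Cd true ∧
      ∀ᶠ y in 𝓝ˢ M, S'.φ (ι y) = S.φ y := by
  obtain ⟨ρ, h0, h1, h2⟩ := pre_small S hW hM
  have hl : ∀ y ∈ W, ι.symm (ι y) = y := fun y hy => ι.left_inv (hs hy)
  have hi : ∀ y ∈ W, ∀ N ⊆ W, ι y ∈ ι '' N ↔ y ∈ N := fun y hy N hN =>
    ι.injOn.mem_image_iff (hN.trans hs) (hs hy)
  have hM' : M' ⊆ W := fun y hy => hM ((S.meq' y).1 hy).1
  have kp : ∀ y ∈ S.O, _ := fun y hy => S.sp.contMDiffAt (S.op.mem_nhds hy)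
  have km : ∀ y ∈ S.O, _ := fun y hy => S.sm.contMDiffAt (S.op.mem_nhds hy)
  have kφ : ∀ y ∈ S.O, _ := fun y hy => S.sφ.contMDiffAt (S.op.mem_nhds hy)
  let S' : Pre v' (ι '' M) (ι '' M') :=
    { O := ι '' (S.O ∩ W)
      tp := S.tp ∘ ι.symm
      tm := S.tm ∘ ι.symm
      r := ρ
      φ := S.φ ∘ ι.symm
      op := open_im (S.op.inter hW) (inter_subset_right.trans hs)
      sp := by rintro _ ⟨y, hy, rfl⟩; exact (sm_push (hs hy.2) (kp y hy.1)).contMDiffWithinAt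
      sm := by rintro _ ⟨y, hy, rfl⟩; exact (sm_push (hs hy.2) (km y hy.1)).contMDiffWithinAt
      p0 := by rintro _ ⟨y, hy, rfl⟩; rw [comp_apply, hl y hy.2]; exact S.p0 y hy.1
      m0 := by rintro _ ⟨y, hy, rfl⟩; rw [comp_apply, hl y hy.2]; exact S.m0 y hy.1
      pv := by
        rintro _ ⟨y, hy, rfl⟩
        rw [dr_push (hs hy.2) (he y hy.2) (kp y hy.1)]; exact S.pv y hy.1
      mv := by
        rintro _ ⟨y, hy, rfl⟩
        rw [dr_push (hs hy.2) (he y hy.2) (km y hy.1)]; exact S.mv y hy.1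
      ly := by
        rintro _ ⟨y, hy, rfl⟩
        rw [dr_push (hs hy.2) (he y hy.2) (kp y hy.1), dr_push (hs hy.2) (he y hy.2) (km y hy.1),
          comp_apply, comp_apply, hl y hy.2, hi y hy.2 M hM]
        exact fun a b => S.ly y hy.1 (a.trans h1) ((neg_le_neg h1).trans b)
      meq := fun z => by
        constructor
        · rintro ⟨y, hy, rfl⟩
          rw [comp_apply, comp_apply, hl y (hM hy)]
          exact ⟨⟨y, ⟨pre_sub S hy, hM hy⟩, rfl⟩, ((S.meq y).1 hy).2⟩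
        · rintro ⟨⟨y, hy, rfl⟩, k⟩
          rw [comp_apply, comp_apply, hl y hy.2] at k
          exact ⟨y, (S.meq y).2 ⟨hy.1, k⟩, rfl⟩
      rpos := h0
      cpt := by
        convert (pre_cpt S h1).image_of_continuousOn
          (ι.contMDiffOn_toFun.continuousOn.mono (h2.trans hs)) using 1
        ext z
        constructor
        · rintro ⟨⟨y, hy, rfl⟩, k⟩
          rw [comp_apply, comp_apply, hl y hy.2] at k
          exact ⟨y, ⟨hy.1, k⟩, rfl⟩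
        · rintro ⟨y, hy, rfl⟩
          refine ⟨⟨y, ⟨hy.1, h2 hy⟩, rfl⟩, ?_⟩
          rw [comp_apply, comp_apply, hl y (h2 hy)]
          exact hy.2
      sφ := by rintro _ ⟨y, hy, rfl⟩; exact (sm_push (hs hy.2) (kφ y hy.1)).contMDiffWithinAt
      φv := by
        rintro _ ⟨y, hy, rfl⟩
        rw [rt_push (hs hy.2) (he y hy.2) (kφ y hy.1)]; exact S.φv y hy.1
      φs := by
        rintro _ ⟨y, hy, rfl⟩
        rw [rt_push (hs (hM hy)) (he y (hM hy)) (kφ y (pre_sub S hy)), hi y (hM hy) M' hM']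
        exact S.φs y hy
      meq' := fun z => by
        constructor
        · rintro ⟨y, hy, rfl⟩
          rw [comp_apply, hl y (hM' hy)]
          exact ⟨⟨y, ((S.meq' y).1 hy).1, rfl⟩, ((S.meq' y).1 hy).2⟩
        · rintro ⟨⟨y, hy, rfl⟩, k⟩
          rw [comp_apply, hl y (hM hy)] at k
          exact ⟨y, (S.meq' y).2 ⟨hy, k⟩, rfl⟩ }
  have hG : ∀ y ∈ W, ∀ θ, (ι y, θ) ∈ S'.Gam ↔ (y, θ) ∈ S.Gam := fun y hy θ => by
    simp only [Pre.Gam, mem_ofPred_eq, S', comp_apply, hl y hy, hi y hy _ inter_subset_right,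
      mem_inter_iff, hy, and_true]
  refine ⟨S', fun W₁ hW₁ => ?_,
    mem_of_superset (hW.mem_nhdsSet.2 hM) fun y hy => congrArg S.φ (hl y hy)⟩
  obtain ⟨U, hU, k1, k2⟩ := mem_nhdsSet_iff_exists.1 hW₁
  obtain ⟨W₂, hW₂, D, Q, hQ, k3, k4⟩ := hC (W ∩ ι ⁻¹' U)
    (((ι.contMDiffOn_toFun.continuousOn.mono hs).isOpen_inter_preimage hW hU).mem_nhdsSet.2
      fun y hy => ⟨hM hy, k1 ⟨y, hy, rfl⟩⟩)
  obtain ⟨U₂, hU₂, k5, k6⟩ := mem_nhdsSet_iff_exists.1 hW₂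
  refine ⟨ι '' (U₂ ∩ W), (open_im (hU₂.inter hW) (inter_subset_right.trans hs)).mem_nhdsSet.2
    (image_mono fun y hy => ⟨k5 hy, hM hy⟩), D, ι '' Q, hQ.image_of_continuousOn
    (ι.contMDiffOn_toFun.continuousOn.mono fun y hy => hs (k3 y hy).2.1.1), ?_, ?_⟩
  · rintro _ ⟨y, hy, rfl⟩
    obtain ⟨a, b, c⟩ := k3 y hy
    refine ⟨⟨y, ⟨a, b.1⟩, rfl⟩, k2 b.2, ?_⟩
    simpa only [S', comp_apply, hl y b.1] using c
  · rintro ⟨_, θ⟩ hq ⟨y, hy, rfl⟩
    obtain ⟨q', a, b⟩ := k4 (y, θ) ((hG y hy.2 θ).1 hq) (k6 hy.1)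
    refine ⟨(ι q'.1, q'.2), ⟨_, a, rfl⟩, ?_⟩
    refine (b.map_continuousOn (f := fun p : Y × ℝ => (ι p.1, p.2))
      ((ι.contMDiffOn_toFun.continuousOn.comp continuousOn_fst fun p hp => hs hp.2.1.1).prodMk
        continuousOn_snd)).mono ?_
    rintro _ ⟨p, hp, rfl⟩
    exact ⟨(hG _ hp.2.1.1 _).2 hp.1, k2 hp.2.1.2, hp.2.2⟩

/-- **TRANS** -/
theorem transStmt : TransStmt := by
  intro Y Y' v v' ι W hW hs he
  refine ⟨fun M M' S => trans_pre hW hs he S, fun n M hM h => ?_⟩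
  have key : ∀ (n : ℕ) (M N : Set Y), M ⊆ W → Ch v true n M N → Ch v' true n (ι '' M) (ι '' N) := by
    intro n
    induction n with
    | zero => exact fun M N _ h => congrArg _ h
    | succ n ih =>
      rintro M N hM ⟨M', S, h1, h2⟩
      obtain ⟨S', h3, -⟩ := trans_pre hW hs he S hM h1
      exact ⟨_, S', h3, ih _ _ (fun y hy => hM ((S.meq' y).1 hy).1) h2⟩
  simpa using key n M ∅ hM h

end Crest.Agent.X212.Hl33
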