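import Crest.Agent.X212.Hl33.Ang

/-!
# X212/Hl33/Foot (helper33): FOOT, the feet of the free columns
-/

set_option autoImplicit false
set_option linter.unusedSectionVars false

open Set Filter Topology Function
open scoped ContDiff Manifold
open Crest.Agent.R208.F Crest.Agent.X212.Dr59 Crest.Agent.X212.Int54 Crest.Agent.X212.Cyl58
open Crest.Agent.X212.Sep15 (EE IR CM Box slab px Rg)
open Crest.Agent.X212.Bb31 (Fm Cy Df Pos)
open Crest.Agent.X212.Flo26 (SmV fl)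
open Crest.Agent.X212.Hel40 Crest.Agent.X212.Line51

noncomputable section

namespace Crest.Agent.X212.Hl33

variable {Y : CM 3} {R : CM 2} {v : Vf Y} {Φ : Y → Circle} {o : Fm 3 Y} {M : Set Y}
  {oR : Fm 2 R} {b : R × ℝ → Y} {σ : ℝ}

/-! ### hitting the free middle surface -/

/-- the orbit of `y` meets the free middle surface at time `T` -/
def Hit (v : Vf Y) (Φ : Y → Circle) (M : Set Y) (y : Y) (T : ℝ) : Prop :=
  |al Φ y| < Real.pi ∧ ht v Φ y T = 0 ∧ fl v T y ∉ M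

open Classical in
/-- the hitting time -/
def hit (v : Vf Y) (Φ : Y → Circle) (M : Set Y) (y : Y) : ℝ :=
  if h : ∃ T, Hit v Φ M y T then h.choose else 0

section hit

variable (h : Bas o v Φ M)
include h

theorem hit_iff {y : Y} {T : ℝ} : Hit v Φ M y T ↔ fl v T y ∈ PP Φ M ∧ Seg v Φ y T := by
  have h0 : |(0 : ℝ)| < Real.pi := by simpa using Real.pi_pos
  refine ⟨fun k => ⟨⟨by rw [phi_ht h, k.2.1, Circle.exp_zero], k.2.2⟩, k.1, by rwa [k.2.1]⟩,
    fun k => ⟨k.2.1, ?_, k.1.2⟩⟩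
  rw [← k.2.al h]
  exact al_eq h0 (by rw [k.1.1, Circle.exp_zero])

theorem col_iff {K : Set Y} {y : Y} : y ∈ col v Φ K ↔ ∃ T, fl v T y ∈ K ∧ Seg v Φ y T :=
  exists_congr fun _ => and_congr_right fun _ => seg_iff h

theorem col_hit {y : Y} : y ∈ col v Φ (PP Φ M) ↔ ∃ T, Hit v Φ M y T :=
  (col_iff h).trans (exists_congr fun _ => (hit_iff h).symm)

theorem Hit.eq {y : Y} {T : ℝ} (k : Hit v Φ M y T) : hit v Φ M y = T := by
  have h1 : ∃ T, Hit v Φ M y T := ⟨T, k⟩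
  rw [hit, dif_pos h1]
  exact an_inj h k.2.2 (add_left_cancel (h1.choose_spec.2.1.trans k.2.1.symm))

theorem hit_spec {y : Y} (k : y ∈ col v Φ (PP Φ M)) : Hit v Φ M y (hit v Φ M y) := by
  obtain ⟨T, hT⟩ := (col_hit h).1 k
  rwa [hT.eq h]

theorem Hit.flow {y : Y} {T t : ℝ} (k : Hit v Φ M y T) (s : Seg v Φ y t) :
    Hit v Φ M (fl v t y) (T - t) :=
  ⟨by rw [s.al h]; exact s.2, by rw [s.ht h, sub_add_cancel, k.2.1],
    by rw [← fl_add h.smv, sub_add_cancel]; exact k.2.2⟩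

theorem pp_hit {y : Y} (k : y ∈ PP Φ M) : Hit v Φ M y 0 := by
  have h0 : |(0 : ℝ)| < Real.pi := by simpa using Real.pi_pos
  have h1 : al Φ y = 0 := al_eq h0 (by rw [k.1, Circle.exp_zero])
  exact ⟨by rwa [h1], by rwa [ht_zero], by rw [Flo26.fl_zero h.smv]; exact k.2⟩

theorem pp_sub : PP Φ M ⊆ col v Φ (PP Φ M) := fun _ k => (col_hit h).2 ⟨0, pp_hit h k⟩

theorem Hit.near {y : Y} {T : ℝ} (k : Hit v Φ M y T) {ε : ℝ} (hε : 0 < ε) :
    ∀ᶠ z in 𝓝 y, ∃ t, Hit v Φ M z t ∧ |t - T| ≤ ε := by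
  have h1 : ∀ᶠ p : ℝ × Y in 𝓝 T ×ˢ 𝓝 y, fl v p.1 p.2 ∉ M := by
    rw [← nhds_prod_eq]
    exact ((cont_fl h.smv).continuousAt (x := (T, y))).eventually (h.cl.isOpen_compl.mem_nhds k.2.2)
  obtain ⟨p, hp, q, hq, h2⟩ := eventually_prod_iff.1 h1
  obtain ⟨δ, hδ, h3⟩ := Metric.eventually_nhds_iff.1 hp
  set d := min ε (δ / 2) with hd
  have d0 : 0 < d := lt_min hε (half_pos hδ)
  have d1 : d ≤ ε := min_le_left _ _
  have d2 : d ≤ δ / 2 := min_le_right _ _
  have h4 : ht v Φ y (T - d) < 0 :=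
    (add_lt_add_right ((an_lt h k.2.2 _).1 (by linarith)) _).trans_eq k.2.1
  have h5 : 0 < ht v Φ y (T + d) :=
    k.2.1.symm.trans_lt (add_lt_add_right ((an_lt h k.2.2 _).2 (by linarith)) _)
  filter_upwards [hq, (ht_contAt h k.1 _).eventually (gt_mem_nhds h4),
    (ht_contAt h k.1 _).eventually (lt_mem_nhds h5),
    (al_cont h.smΦ k.1).abs.eventually (gt_mem_nhds k.1)] with z a c e g
  obtain ⟨t, k1, k2⟩ := intermediate_value_Icc (a := T - d) (b := T + d) (by linarith)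
    (ht_cont h z).continuousOn ⟨c.le, e.le⟩
  have k3 : |t - T| ≤ d := abs_le.2 ⟨by linarith [k1.1], by linarith [k1.2]⟩
  exact ⟨t, ⟨g, k2, h2 (h3 (by rw [Real.dist_eq]; linarith)) a⟩, k3.trans d1⟩

theorem isOpen_col : IsOpen (col v Φ (PP Φ M)) := isOpen_iff_mem_nhds.2 fun y k => by
  filter_upwards [(hit_spec h k).near h one_pos] with z ⟨t, a, _⟩ using (col_hit h).2 ⟨t, a⟩

theorem hit_cont {y : Y} (k : y ∈ col v Φ (PP Φ M)) : ContinuousAt (hit v Φ M) y :=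
  Metric.continuousAt_iff'.2 fun ε hε => by
    filter_upwards [(hit_spec h k).near h (half_pos hε)] with z ⟨t, a, c⟩
    rw [a.eq h, Real.dist_eq]
    linarith

end hit

/-! ### the box -/

theorem box_ne (hb : Bx o v Φ oR b) (p : R × ℝ) : Φ (b p) ≠ 1 := by
  have : b p ∈ {y | Φ y ≠ 1} := hb.rg ▸ mem_range_self p
  exact this

theorem sm_ver (hb : Box b) (x : R) : ContMDiff 𝓘(ℝ, ℝ) (𝓡 3) ∞ fun t : ℝ => b (x, t) :=
  hb.contMDiff.comp (contMDiff_const.prodMk contMDiff_id)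

theorem mf_ver (hb : Box b) (x : R) (t : ℝ) :
    mf 𝓘(ℝ, ℝ) (𝓡 3) (fun t : ℝ => b (x, t)) t 1 = mf (IR 2) (𝓡 3) b (x, t) (0, 1) := by
  have h1 := mf_comp (K := 𝓘(ℝ, ℝ)) (f := fun t : ℝ => (x, t)) (z := t)
    ((hb.contMDiff _).mdifferentiableAt (by simp)) (mdifferentiableAt_const.prodMk mdifferentiableAt_id)
  have h2 : mf 𝓘(ℝ, ℝ) (IR 2) (fun t : ℝ => (x, t)) t = ContinuousLinearMap.inr ℝ _ _ :=
    mfderiv_prod_right
  rw [h2] at h1
  exact congrArg (fun A : ℝ →L[ℝ] EE 3 => A 1) h1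

theorem al_box (hb : Bx o v Φ oR b) (hσ : σ = 1 ∨ σ = -1) (x : R) {s : ℝ} (hs : 0 < σ * s) :
    al Φ (b (x, s)) = 2 * Real.arctan s - σ * Real.pi ∧ |al Φ (b (x, s))| < Real.pi ∧
      σ * al Φ (b (x, s)) < 0 := by
  have h1 := Real.arctan_lt_pi_div_two s
  have h2 := Real.neg_pi_div_two_lt_arctan s
  have h3 : |2 * Real.arctan s - σ * Real.pi| < Real.pi ∧
      σ * (2 * Real.arctan s - σ * Real.pi) < 0 := by
    rw [abs_lt]
    rcases hσ with rfl | rfl
    · have := Real.arctan_pos.2 (show 0 < s by linarith)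
      exact ⟨⟨by linarith, by linarith⟩, by linarith⟩
    · have := Real.arctan_lt_zero.2 (show s < 0 by linarith)
      exact ⟨⟨by linarith, by linarith⟩, by linarith⟩
  have h4 := al_eq (Φ := Φ) (y := b (x, s)) h3.1 (by
    rw [hb.ang, cay]
    rcases hσ with rfl | rfl
    · rw [← Circle.exp_sub_two_pi]; congr 1; ring
    · congr 1; ring)
  exact ⟨h4, h4 ▸ h3⟩

theorem exists_box (hb : Bx o v Φ oR b) (hσ : σ = 1 ∨ σ = -1) {y : Y} (h1 : |al Φ y| < Real.pi)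
    (h2 : σ * al Φ y < 0) : ∃ x s, 0 < σ * s ∧ y = b (x, s) := by
  obtain ⟨⟨x, s⟩, rfl⟩ : y ∈ range b := by
    rw [hb.rg]
    intro e
    rw [al_eq (a := 0) (by simpa using Real.pi_pos) (by rw [e, Circle.exp_zero])] at h2
    simp at h2
  refine ⟨x, s, not_le.1 fun e => ?_, rfl⟩
  rcases e.lt_or_eq with e | e
  · have := (al_box (σ := -σ) hb (by rcases hσ with rfl | rfl <;> simp) x (s := s)
      (by linarith)).2.2
    linarith
  · obtain rfl : s = 0 := by rcases hσ with rfl | rfl <;> linarith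
    exact ne_iff.2 h1 (by rw [hb.ang, cay]; simp)

theorem isOpen_side (hb : Box b) (σ : ℝ) : IsOpen (b '' {p | 0 < σ * p.2}) :=
  hb.isOpen_image (isOpen_lt continuous_const (by fun_prop))

/-- far from the compact slabs one is near the plateau or in a free column -/
theorem exists_far (hb : Bx o v Φ oR b) {U : Set Y} (hU : IsOpen U) (h1 : ∀ y, Φ y = 1 → y ∈ U) :
    ∃ T : ℝ, ∀ p : R × ℝ, T ≤ |p.2| → b p ∈ U := by
  have h2 : IsCompact (b ⁻¹' Uᶜ) := hb.box.isOpenEmbedding.isInducing.isCompact_preimage'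
    hU.isClosed_compl.isCompact fun y hy => by rw [hb.rg]; exact fun e => hy (h1 y e)
  obtain ⟨T, hT⟩ := h2.bddAbove_image (f := fun p => |p.2|) (by fun_prop)
  exact ⟨T + 1, fun p hp => by_contra fun e => by linarith [hT ⟨p, e, rfl⟩]⟩

section foot

variable (trk : TrkStmt) (h : Bas o v Φ M) (hb : Bx o v Φ oR b)
include h hb

theorem box_nm (p : R × ℝ) : b p ∉ M := fun e => box_ne hb p (h.one _ e)

include trk

theorem tk (x : R) (s s' : ℝ) : ∃ u, fl v u (b (x, s)) = b (x, s') ∧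
    an v Φ (b (x, s)) u = 2 * Real.arctan s' - 2 * Real.arctan s := by
  obtain ⟨τ, h1, -, h2⟩ := trk Y v (fun t => b (x, t)) (min s s' - 1) (max s s' + 1) h.smv
    fun t _ => ⟨sm_ver hb.box x t, ne_zero_of_rt (h.pos _ (box_nm h hb _)), by
      rw [mf_ver hb.box]; exact hb.vert _⟩
  have k : s ∈ Ioo (min s s' - 1) (max s s' + 1) :=
    ⟨by linarith [min_le_left s s'], by linarith [le_max_left s s']⟩
  have k' : s' ∈ Ioo (min s s' - 1) (max s s' + 1) :=
    ⟨by linarith [min_le_right s s'], by linarith [le_max_right s s']⟩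
  refine ⟨_, h2 s k s' k', ?_⟩
  have h3 := Circle.isCoveringMap_exp.eqOn_of_comp_eqOn isPreconnected_Ioo
    (g₁ := fun t => Real.pi + 2 * Real.arctan s + an v Φ (b (x, s)) (τ t - τ s))
    (g₂ := fun t => Real.pi + 2 * Real.arctan t)
    (continuousOn_const.add ((an_cont h.smv h.smΦ).comp_continuousOn
      (f := fun t => (b (x, s), τ t - τ s)) (continuousOn_const.prodMk (h1.sub continuousOn_const))))
    (continuous_const.add (continuous_const.mul Real.continuous_arctan)).continuousOn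
    (fun t a => by
      have h4 := phi_fl h.smv h.smΦ (b (x, s)) (τ t - τ s)
      rw [h2 s k t a, hb.ang, hb.ang] at h4
      rw [comp_apply, comp_apply, Circle.exp_add]
      exact h4.symm) k (by simp [an_zero]) k'
  simp only at h3
  linarith

theorem seg_box (hσ : σ = 1 ∨ σ = -1) (x : R) {s s' : ℝ} (hs : 0 < σ * s) (hs' : 0 < σ * s') :
    ∃ u, fl v u (b (x, s)) = b (x, s') ∧ Seg v Φ (b (x, s)) u := by
  obtain ⟨u, h1, h2⟩ := tk trk h hb x s s'
  have h3 := al_box hb hσ x hs'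
  refine ⟨u, h1, (al_box hb hσ x hs).2.1, ?_⟩
  rw [ht, h2, (al_box hb hσ x hs).1]
  convert h3.2.1 using 2
  rw [h3.1]
  ring

end foot

/-- `x` is the foot of `y` -/
def Rl (v : Vf Y) (Φ : Y → Circle) (b : R × ℝ → Y) (σ : ℝ) (y : Y) (x : R) : Prop :=
  ∃ T s, 0 < σ * s ∧ fl v T y = b (x, s) ∧ Seg v Φ y T

theorem Rl.uniq (trk : TrkStmt) (h : Bas o v Φ M) (hb : Bx o v Φ oR b) (hσ : σ = 1 ∨ σ = -1)
    {y : Y} {x x' : R} (k : Rl v Φ b σ y x) (k' : Rl v Φ b σ y x') : x = x' := by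
  obtain ⟨T, s, h1, h2, h3⟩ := k
  obtain ⟨T', s', h1', h2', h3'⟩ := k'
  obtain ⟨u, h4, h5⟩ := tk trk h hb x s s'
  have h6 := h3.al h
  have h6' := h3'.al h
  rw [h2, (al_box hb hσ x h1).1, ht] at h6
  rw [h2', (al_box hb hσ x' h1').1, ht] at h6'
  have h7 : u + T = T' := an_inj h (y := y) (h2' ▸ box_nm h hb _) (by
    rw [an_add h.smv h.smΦ, h2, h5]; linarith)
  rw [← h7, fl_add h.smv, h2, h4] at h2'
  exact congrArg Prod.fst (hb.box.inj h2')

theorem Hit.rl (h : Bas o v Φ M) (hb : Bx o v Φ oR b) (hσ : σ = 1 ∨ σ = -1) {y : Y} {T : ℝ}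
    (k : Hit v Φ M y T) : ∃ x, Rl v Φ b σ y x := by
  have h1 : ∀ᶠ ε in 𝓝[>] (0 : ℝ), |ht v Φ y (T - σ * ε)| < Real.pi :=
    (((ht_cont h y).comp (f := fun ε : ℝ => T - σ * ε) (by fun_prop)).abs.continuousAt.eventually
      (gt_mem_nhds (by simpa [k.2.1] using Real.pi_pos))).filter_mono nhdsWithin_le_nhds
  obtain ⟨ε, h2, h3⟩ := (h1.and self_mem_nhdsWithin).exists
  have h4 : (0 : ℝ) < ε := h3
  have s : Seg v Φ y (T - σ * ε) := ⟨k.1, h2⟩
  obtain ⟨x, t, h5, h6⟩ := exists_box hb hσ (y := fl v (T - σ * ε) y) (by rwa [s.al h]) (by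
    have h7 := an_lt h k.2.2 (T - σ * ε)
    have h8 := k.2.1
    rw [s.al h]
    simp only [ht] at h8 ⊢
    rcases hσ with rfl | rfl
    · linarith [h7.1 (by linarith)]
    · linarith [h7.2 (by linarith)])
  exact ⟨x, _, t, h5, h6, s⟩

/-- **FOOT** (with `R` nonempty) -/
theorem foot (trk : TrkStmt) (h : Bas o v Φ M) (hb : Bx o v Φ oR b) (hσ : σ = 1 ∨ σ = -1)
    [Nonempty R] : ∃ F f π, Ft v Φ M b σ F f π := by
  classical
  let f : Y → R := fun y => if k : ∃ x, Rl v Φ b σ y x then k.choose else Classical.arbitrary R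
  have hf : ∀ {y x}, Rl v Φ b σ y x → f y = x := fun {y x} k => by
    have k' : ∃ x, Rl v Φ b σ y x := ⟨x, k⟩
    exact (dif_pos k').trans (k'.choose_spec.uniq trk h hb hσ k)
  have hσ2 : 0 < σ * σ := by rcases hσ with rfl | rfl <;> simp
  let p : Y → Y := fun y => fl v (hit v Φ M y) y
  have hr : ∀ y ∈ col v Φ (PP Φ M), Rl v Φ b σ y (f y) := fun y k => by
    obtain ⟨x, hx⟩ := (hit_spec h k).rl h hb hσ
    rwa [hf hx]
  have hflow : ∀ y ∈ col v Φ (PP Φ M), ∀ T, Seg v Φ y T → fl v T y ∈ col v Φ (PP Φ M) ∧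
      f (fl v T y) = f y ∧ p (fl v T y) = p y := fun y k T s => by
    have h1 := (hit_spec h k).flow h s
    have h2 := (col_hit h).2 ⟨_, h1⟩
    obtain ⟨T', t, a, c, e⟩ := hr _ h2
    refine ⟨h2, (hf ⟨T' + T, t, a, by rw [fl_add h.smv, c], s.1, s.ht h T' ▸ e.2⟩).symm, ?_⟩
    simp only [p]
    rw [h1.eq h, ← fl_add h.smv, sub_add_cancel]
  have hbox : ∀ x s, 0 < σ * s → f (b (x, s)) = x := fun x s k =>
    hf ⟨0, s, k, Flo26.fl_zero h.smv _, (al_box hb hσ x k).2.1, by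
      rw [ht_zero]; exact (al_box hb hσ x k).2.1⟩
  have hver : ∀ x s s', 0 < σ * s → 0 < σ * s' → b (x, s) ∈ col v Φ (PP Φ M) →
      b (x, s') ∈ col v Φ (PP Φ M) ∧ p (b (x, s')) = p (b (x, s)) := fun x s s' a c k => by
    obtain ⟨u, h1, h2⟩ := seg_box trk h hb hσ x a c
    have := hflow _ k u h2
    rw [h1] at this
    exact ⟨this.1, this.2.2⟩
  have hπ : ∀ y ∈ col v Φ (PP Φ M), b (f y, σ) ∈ col v Φ (PP Φ M) ∧ p (b (f y, σ)) = p y :=
    fun y k => by
      obtain ⟨T, s, a, c, e⟩ := hr y k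
      have h1 := hflow y k T e
      rw [c] at h1
      exact (hver _ s σ a hσ2 h1.1).imp_right fun z => z.trans h1.2.2
  have hc : Continuous fun x : R => b (x, σ) := hb.box.continuous.comp (by fun_prop)
  have hmem : ∀ x s, 0 < σ * s → (b (x, s) ∈ col v Φ (PP Φ M) ↔ b (x, σ) ∈ col v Φ (PP Φ M)) :=
    fun x s a => ⟨fun k => (hver x s σ a hσ2 k).1, fun k => (hver x σ s hσ2 a k).1⟩
  refine ⟨{x | b (x, σ) ∈ col v Φ (PP Φ M)}, f, fun x => p (b (x, σ)), (isOpen_col h).preimage hc,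
    isOpen_col h, fun y k => ContMDiffAt.contMDiffWithinAt ?_, hbox,
    fun y k T s => (hflow y k T ((seg_iff h).1 s)).imp_right And.left, fun y k => (hπ y k).1,
    fun x k => ContinuousAt.continuousWithinAt ?_, fun x k => ((hit_iff h).1 (hit_spec h k)).1,
    fun x k => (hflow _ k _ ((hit_iff h).1 (hit_spec h k)).2).2.1.trans (hbox x σ hσ2),
    fun y k => ?_, fun K hK y => ⟨fun k => ?_, fun k => ?_⟩, hmem, fun W hW => ?_⟩
  · obtain ⟨T, s, a, c, e⟩ := hr y k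
    have h1 : ContMDiffAt (𝓡 3) (𝓡 2) ∞ (fun z => (hb.box.pd.symm (fl v T z)).1) y :=
      contMDiffAt_fst.comp y ((hb.box.pd.contMDiffOn_invFun.contMDiffAt
        (hb.box.isOpen_range.mem_nhds ⟨_, c.symm⟩)).comp y (sm_fl h.smv T y))
    refine h1.congr_of_eventuallyEq ?_
    filter_upwards [(sm_fl h.smv T).continuous.continuousAt.eventually
      ((isOpen_side hb.box σ).mem_nhds ⟨(f y, s), a, c.symm⟩),
      (al_cont h.smΦ e.1).abs.eventually (gt_mem_nhds e.1),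
      (ht_contAt h e.1 T).abs.eventually (gt_mem_nhds e.2)] with z ⟨q, k1, k2⟩ k3 k4
    rw [← k2, IsOE.pd_symm_apply]
    exact hf ⟨T, q.2, k1, k2.symm, k3, k4⟩
  · exact ((cont_fl h.smv).continuousAt.comp (f := fun y => (hit v Φ M y, y))
      ((hit_cont h k).prodMk continuousAt_id)).comp (f := fun x : R => b (x, σ)) hc.continuousAt
  · rw [(hπ y (pp_sub h k)).2]
    simp only [p]
    rw [(pp_hit h k).eq h, Flo26.fl_zero h.smv]
  · obtain ⟨T, a, c⟩ := (col_iff h).1 k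
    have h1 := (hit_iff h).2 ⟨hK a, c⟩
    have h2 := (col_hit h).2 ⟨T, h1⟩
    refine ⟨h2, ?_⟩
    rw [(hπ y h2).2]
    simp only [p]
    rwa [h1.eq h]
  · exact (col_iff h).2 ⟨_, show p y ∈ K from (hπ y k.1).2 ▸ k.2,
      ((hit_iff h).1 (hit_spec h k.1)).2⟩
  · obtain ⟨T, hT⟩ := exists_far hb (isOpen_interior (s := W) |>.union (isOpen_col h)) fun y e => by
      by_cases k : y ∈ M
      · exact Or.inl (subset_interior_iff_mem_nhdsSet.2 hW k)
      · exact Or.inr (pp_sub h ⟨e, k⟩)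
    refine ⟨max T 1, fun x k s a => ?_⟩
    have h1 : σ * s ≤ |s| := by rcases hσ with rfl | rfl <;> simp [le_abs_self, neg_le_abs]
    exact interior_subset ((hT (x, s) ((le_max_left _ _).trans (a.trans h1))).resolve_right
      fun e => k ((hmem x s (one_pos.trans_le ((le_max_right _ _).trans a))).1 e))

/-- **FOOT** -/
theorem footStmt (trk : TrkStmt) : FootStmt := fun _ _ _ _ _ _ _ _ _ h hb hσ _ => foot trk h hb hσ

end Crest.Agent.X212.Hl33
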