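import Crest.Agent.X212.Hl33.Foot
import Crest.Agent.X212.Hl33.Trans

/-!
# X212/Hl33/Conn (helper33): CONN, the fibre is connected
-/

set_option autoImplicit false
set_option linter.unusedSectionVars false

open Set Filter Topology Function
open scoped ContDiff Manifold
open Crest.Agent.R208.F Crest.Agent.X212.Dr59 Crest.Agent.X212.Int54 Crest.Agent.X212.Cyl58
open Crest.Agent.X212.Sep15 (EE IR CM Box slab px Rg)
open Crest.Agent.X212.Bb31 (Fm Cy Df Pos)
open Crest.Agent.X212.Flo26 (SmV fl)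
open Crest.Agent.X212.Hel40 Crest.Agent.X212.Line51

noncomputable section

namespace Crest.Agent.X212.Hl33

variable {Y : CM 3} {R : CM 2} {v : Vf Y} {Φ : Y → Circle} {o : Fm 3 Y} {M M' : Set Y}
  {oR : Fm 2 R} {b : R × ℝ → Y} {σ : ℝ} {F : Set R} {f : Y → R} {π : R → Y}

/-- a function increasing along `v` increases along the verticals of the box -/
theorem mono_ver (hb : Bx o v Φ oR b) {O : Set Y} (hO : IsOpen O) {g : Y → ℝ}
    (hg : ContMDiffOn (𝓡 3) 𝓘(ℝ, ℝ) ∞ g O) (h0 : ∀ y ∈ O, 0 ≤ dr g v y) (x : R) {I : Set ℝ}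
    (hI : Convex ℝ I) (hm : ∀ s ∈ I, b (x, s) ∈ O) : MonotoneOn (fun s => g (b (x, s))) I := by
  have h1 : ∀ s ∈ I, MDifferentiableAt (𝓡 3) 𝓘(ℝ, ℝ) g (b (x, s)) := fun s hs =>
    (hg.contMDiffAt (hO.mem_nhds (hm s hs))).mdifferentiableAt (by simp)
  have h2 := fun s => (sm_ver hb.box x s).mdifferentiableAt (by simp)
  have h3 : ∀ s ∈ I, DifferentiableAt ℝ (fun s => g (b (x, s))) s := fun s hs =>
    ((h1 s hs).comp s (h2 s)).differentiableAt
  refine monotoneOn_of_deriv_nonneg hI (fun s hs => (h3 s hs).continuousAt.continuousWithinAt)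
    (fun s hs => (h3 s (interior_subset hs)).differentiableWithinAt) fun s hs => ?_
  obtain ⟨c, hc, e⟩ := hb.vert (x, s)
  have h4 := congrArg (fun A : ℝ →L[ℝ] ℝ => A 1)
    (mf_comp (f := fun t : ℝ => b (x, t)) (h1 s (interior_subset hs)) (h2 s))
  simp only [mf_eq_fderiv, ContinuousLinearMap.comp_apply, mf_ver hb.box, e] at h4
  exact (mul_nonneg hc.le (h0 _ (hm s (interior_subset hs)))).trans_eq
    (h4.trans (map_smul (mf (𝓡 3) 𝓘(ℝ, ℝ) g (b (x, s))) c (v (b (x, s)) : EE 3))).symm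

/-- a vertical that is not free ends on the plateau -/
theorem key (hb : Bx o v Φ oR b) (hσ : σ = 1 ∨ σ = -1) (ft : Ft v Φ M b σ F f π) {O : Set Y}
    (hO : IsOpen O) (hM : M ⊆ O) {g : Y → ℝ} (hg : ContMDiffOn (𝓡 3) 𝓘(ℝ, ℝ) ∞ g O)
    (h0 : ∀ y ∈ O, 0 ≤ dr g v y) (h1 : ∀ y ∈ M, g y = 0) :
    ∃ T : ℝ, ∀ x ∉ F, ∀ s, T ≤ σ * s → b (x, s) ∈ O ∧ σ * g (b (x, s)) ≤ 0 := by
  obtain ⟨T, hT⟩ := ft.lim O (hO.mem_nhdsSet.2 hM)
  refine ⟨T, fun x hx s hs => ⟨hT x hx s hs, le_of_forall_pos_le_add fun ε hε => ?_⟩⟩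
  obtain ⟨T', hT'⟩ := ft.lim (O ∩ (fun y => σ * g y) ⁻¹' Iio ε)
    (((continuousOn_const.mul hg.continuousOn).isOpen_inter_preimage hO isOpen_Iio).mem_nhdsSet.2
      fun y hy => ⟨hM hy, by simpa [h1 y hy] using hε⟩)
  have h2 := le_max_left s T'
  have h3 := le_max_right s T'
  have h4 := min_le_left s (-T')
  have h5 := min_le_right s (-T')
  rcases hσ with rfl | rfl
  · have h6 := mono_ver hb hO hg h0 x (convex_Ici T) (fun t a => hT x hx t (by simpa using a))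
      (show T ≤ s by linarith) (show T ≤ max s T' by linarith) h2
    have h7 : 1 * g _ < ε := (hT' x hx (max s T') (by linarith)).2
    simp only at h6
    linarith
  · have h6 := mono_ver hb hO hg h0 x (convex_Iic (-T))
      (fun t a => hT x hx t (by linarith [mem_Iic.1 a]))
      (show min s (-T') ≤ -T by linarith) (show s ≤ -T by linarith) h4
    have h7 : -1 * g _ < ε := (hT' x hx (min s (-T')) (by linarith)).2
    simp only at h6
    linarith

/-- **CONN** -/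
theorem connStmt (trk : TrkStmt) : ConnStmt := by
  intro Y R o v Φ M M' oR b S h hb hC hP
  have := nonempty_R h hb hP.nonempty
  obtain ⟨F, f, π, ft⟩ := foot trk h hb (Or.inl rfl)
  obtain ⟨F', f', π', ft'⟩ := foot trk h hb (Or.inr rfl)
  obtain ⟨T₁, h1⟩ := key hb (Or.inl rfl) ft S.op (pre_sub S) S.sp S.pv
    fun y hy => ((S.meq y).1 hy).2.1
  obtain ⟨T₂, h2⟩ := key hb (Or.inr rfl) ft' S.op (pre_sub S) S.sm S.mv
    fun y hy => ((S.meq y).1 hy).2.2
  set T := max (max T₁ T₂) 0 with hT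
  have t1 : T₁ ≤ T := (le_max_left _ _).trans (le_max_left _ _)
  have t2 : T₂ ≤ T := (le_max_right _ _).trans (le_max_left _ _)
  have t0 : 0 ≤ T := le_max_right _ _
  obtain ⟨W', hW', D, Q, -, h3, h4⟩ := hC (slab b (Icc (-T) T))ᶜ
    (((isCompact_univ.prod isCompact_Icc).image hb.box.continuous).isClosed.isOpen_compl.mem_nhdsSet.2
      fun y hy ⟨p, _, e⟩ => box_nm h hb p (e ▸ hy))
  -- points with a negative lower colour
  have h5 : ∀ y ∉ slab b (Icc (-T) T), y ∈ S.O → S.tm y < 0 → y ∈ col v Φ (PP Φ M) ∨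
      (S.tp y ≤ 0 ∧ y ∈ b '' {p | 0 < 1 * p.2}) := fun y a c e => by
    by_cases k : Φ y = 1
    · exact Or.inl (pp_sub h ⟨k, fun m => e.ne ((S.meq y).1 m).2.2⟩)
    obtain ⟨⟨x, s⟩, rfl⟩ : y ∈ range b := hb.rg ▸ k
    rcases not_and_or.1 (fun m : -T ≤ s ∧ s ≤ T => a ⟨(x, s), ⟨mem_univ _, m⟩, rfl⟩) with m | m
    · refine Or.inl ((ft'.mem x s (by linarith)).2 (by_contra fun k' => ?_))
      linarith [(h2 x k' s (by linarith)).2]
    · by_cases k' : x ∈ F
      · exact Or.inl ((ft.mem x s (by linarith)).2 k')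
      · exact Or.inr ⟨by linarith [(h1 x k' s (by linarith)).2],
          (x, s), show 0 < 1 * s by linarith, rfl⟩
  have h6 : ∀ y ∈ col v Φ (PP Φ M) ∪ b '' {p | 0 < 1 * p.2}, ContinuousAt f y := by
    rintro y (k | ⟨p, k, rfl⟩)
    · exact (ft.sm.contMDiffAt (ft.opc.mem_nhds k)).continuousAt
    · refine (continuousAt_fst.comp (hb.box.pd.contMDiffOn_invFun.contMDiffAt
        (hb.box.isOpen_range.mem_nhds ⟨p, rfl⟩)).continuousAt).congr ?_
      filter_upwards [(isOpen_side hb.box 1).mem_nhds ⟨p, k, rfl⟩] with z ⟨q, k1, k2⟩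
      rw [← k2, ft.box q.1 q.2 k1]
      exact congrArg Prod.fst (hb.box.pd_symm_apply q)
  have h7 : IsConnected F := by
    convert hP.image f fun y k => (h6 y (Or.inl (pp_sub h k))).continuousWithinAt
    exact Subset.antisymm (fun x k => ⟨π x, ft.maps' k, ft.left x k⟩)
      (by rintro _ ⟨y, k, rfl⟩; exact ft.maps (pp_sub h k))
  obtain ⟨x₀, hx₀⟩ := h7.nonempty
  refine ⟨⟨x₀, mem_univ _⟩, isPreconnected_of_forall x₀ fun x _ => ?_⟩
  by_cases hx : x ∈ F
  · exact ⟨F, subset_univ _, hx₀, hx, h7.isPreconnected⟩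
  obtain ⟨T', hT'⟩ := ft.lim W' hW'
  set s := max T' (T + 1) with hs
  have s1 : T' ≤ s := le_max_left _ _
  have s2 : T + 1 ≤ s := le_max_right _ _
  obtain ⟨k1, k2⟩ := h1 x hx s (by linarith)
  have k3 : S.tm (b (x, s)) < 0 := (S.m0 _ k1).lt_of_ne fun e =>
    box_nm h hb _ ((S.meq _).2 ⟨k1, le_antisymm (by linarith) (S.p0 _ k1), e⟩)
  obtain ⟨n, hn⟩ := exists_nat_gt (|D| + Real.pi)
  have k4 : |D| < al S.φ (b (x, s)) + n * (2 * Real.pi) := by
    have := Complex.neg_pi_lt_arg (S.φ (b (x, s)))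
    have := mul_le_mul_of_nonneg_left (show 1 ≤ 2 * Real.pi by linarith [Real.two_le_pi])
      (Nat.cast_nonneg (α := ℝ) n)
    rw [al]
    linarith
  obtain ⟨q, k5, k6⟩ := h4 (b (x, s), al S.φ (b (x, s)) + n * (2 * Real.pi))
    ⟨k1, ((Circle.periodic_exp.nat_mul n _).trans (exp_al _)).symm,
      Or.inr (Or.inl ⟨k3, (abs_nonneg D).trans_lt k4⟩)⟩ (hT' x hx s (by linarith))
  have k7 := (k6.map_continuousOn (f := fun p : Y × ℝ => f p.1) fun p a => by
    have c : S.tm p.1 < 0 := by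
      have := abs_le.1 a.2.2
      rcases a.1.2.2 with c | c | c
      · linarith [c.2, le_abs_self D]
      · exact c.1
      · exact c.2
    exact ((h6 _ ((h5 _ a.2.1 a.1.1 c).imp_right And.right)).comp
      continuousAt_fst).continuousWithinAt).joined
  obtain ⟨a1, a2, a3, a4⟩ := h3 _ k5
  have k8 : f q.1 ∈ F := ft.maps ((h5 _ a2 a1 a4).resolve_right fun e => e.1.not_gt a3)
  simp only [ft.box x s (by linarith)] at k7
  obtain ⟨γ⟩ := k7
  exact ⟨F ∪ range γ, subset_univ _, Or.inl hx₀, Or.inr γ.source_mem_range,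
    h7.isPreconnected.union _ k8 γ.target_mem_range (isPreconnected_range γ.continuous)⟩

end Crest.Agent.X212.Hl33
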