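import Crest.Agent.X212.Hel40.Defs

/-!
# X212/Hl33/Ang (helper33): the lifted angle along the flow;  SLAB
-/

set_option autoImplicit false
set_option linter.unusedSectionVars false

open Set Filter Topology Function
open scoped ContDiff Manifold
open Crest.Agent.R208.F Crest.Agent.X212.Dr59 Crest.Agent.X212.Int54 Crest.Agent.X212.Cyl58
open Crest.Agent.X212.Sep15 (EE IR CM Box slab px Rg)
open Crest.Agent.X212.Bb31 (Fm Cy Df Pos)
open Crest.Agent.X212.Flo26 (SmV fl)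
open Crest.Agent.X212.Hel40 Crest.Agent.X212.Line51

noncomputable section

namespace Crest.Agent.X212.Hl33

variable {Y : CM 3} {R : CM 2} {v : Vf Y} {Φ : Y → Circle}

/-! ### the flow of a closed manifold -/

theorem cpl (hv : SmV (𝓡 3) v) : Flo26.Cpl v := Flo26.complete_of_compactSpace hv

theorem fl_add (hv : SmV (𝓡 3) v) (s t : ℝ) (y : Y) : fl v (s + t) y = fl v s (fl v t y) :=
  (cpl hv).add hv s t y

theorem cont_fl (hv : SmV (𝓡 3) v) : Continuous fun p : ℝ × Y => fl v p.1 p.2 :=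
  ((cpl hv).contMDiff hv).continuous

theorem cont_time (hv : SmV (𝓡 3) v) (y : Y) : Continuous fun t : ℝ => fl v t y :=
  (cont_fl hv).comp (f := fun t : ℝ => (t, y)) (by fun_prop)

theorem sm_fl (hv : SmV (𝓡 3) v) (t : ℝ) : ContMDiff (𝓡 3) (𝓡 3) ∞ (fl v t) :=
  (Flo26.flD hv (cpl hv) t).contMDiff

/-! ### the rate -/

theorem rt_eq (y : Y) :
    rt Φ v y = (star (Φ y : ℂ) * dc (𝓡 3) (fun z => (Φ z : ℂ)) y (v y)).im := by
  refine (tl_eq_sum (I := 𝓡 3) (u := sc Φ) (x := y) (v y)).trans ?_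
  simp only [Finset.univ_unique, Finset.sum_singleton, sc, Matrix.of_apply]

theorem dc_eq {y : Y} (h : CSm (𝓡 3) Φ y) :
    dc (𝓡 3) (fun z => (Φ z : ℂ)) y (v y) = Φ y * (Complex.I * rt Φ v y) := by
  have h1 : Pj41.FSm (𝓡 3) (fun z => (Φ z : ℂ)) y := (contMDiff_coe _).comp y h
  have h2 : Pj41.FSm (𝓡 3) (fun z => star (Φ z : ℂ)) y :=
    (Complex.conjCLE : ℂ →L[ℝ] ℂ).contDiff.contDiffAt.comp_contMDiffAt h1
  have h3 : ∀ z, star (Φ z : ℂ) * Φ z = 1 := fun z => by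
    rw [Complex.star_def, Complex.conj_mul', Circle.norm_coe]; simp
  rw [rt_eq]
  obtain ⟨w, hw⟩ : ∃ w : EE 3, v y = w := ⟨_, rfl⟩
  rw [hw]
  have h4 := dc_mul h2 h1 w
  rw [funext h3, dc_const, dc_star h1] at h4
  set D := dc (𝓡 3) (fun z => (Φ z : ℂ)) y w
  have h5 : (star (Φ y : ℂ) * D).re = 0 := by
    have := congrArg Complex.re h4
    simp at this ⊢
    linarith
  have h6 : star (Φ y : ℂ) * D = Complex.I * (star (Φ y : ℂ) * D).im := by
    apply Complex.ext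
    · rw [h5]; simp
    · simp
  rw [← h6, ← mul_assoc, mul_comm (Φ y : ℂ), h3, one_mul]

theorem cont_rt (hv : SmV (𝓡 3) v) (hΦ : SC Φ) : Continuous (rt Φ v) := by
  have h1 : ContMDiff (𝓡 3) 𝓘(ℝ, ℂ) ∞ fun z => (Φ z : ℂ) := contMDiff_coe.comp hΦ
  have h2 : Continuous fun y => dc (𝓡 3) (fun z => (Φ z : ℂ)) y (v y) :=
    ((contMDiff_snd_tangentBundle_modelSpace ℂ 𝓘(ℝ, ℂ)).comp (hv.tangent h1)).continuous
  rw [funext rt_eq]
  exact Complex.continuous_im.comp (h1.continuous.star.mul h2)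

theorem ne_zero_of_rt {y : Y} (h : 0 < rt Φ v y) : v y ≠ 0 := fun e => by
  rw [rt, e] at h
  exact h.ne' (map_zero _)

/-- the angle swept in time `t` -/
def an (v : Vf Y) (Φ : Y → Circle) (y : Y) (t : ℝ) : ℝ := ∫ s in (0 : ℝ)..t, rt Φ v (fl v s y)

section an

variable (hv : SmV (𝓡 3) v) (hΦ : SC Φ)
include hv hΦ

theorem an_deriv (y : Y) (t : ℝ) : HasDerivAt (an v Φ y) (rt Φ v (fl v t y)) t :=
  (((cont_rt hv hΦ).comp (cont_time hv y)).integral_hasStrictDerivAt 0 t).hasDerivAt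

theorem an_cont : Continuous fun p : Y × ℝ => an v Φ p.1 p.2 :=
  intervalIntegral.continuous_parametric_primitive_of_continuous
    (f := fun y s => rt Φ v (fl v s y))
    ((cont_rt hv hΦ).comp ((cont_fl hv).comp continuous_swap))

omit hv hΦ in
theorem an_zero (y : Y) : an v Φ y 0 = 0 := intervalIntegral.integral_same

theorem an_add (y : Y) (s t : ℝ) : an v Φ y (s + t) = an v Φ (fl v t y) s + an v Φ y t := by
  have h := (cont_rt hv hΦ).comp (cont_time hv y)
  have h1 : an v Φ (fl v t y) s = ∫ u in t..s + t, rt Φ v (fl v u y) := by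
    simp only [an, ← fl_add hv]
    rw [intervalIntegral.integral_comp_add_right (fun u => rt Φ v (fl v u y)), zero_add]
  rw [h1, add_comm (∫ u in t..s + t, rt Φ v (fl v u y))]
  exact (intervalIntegral.integral_add_adjacent_intervals (h.intervalIntegrable _ _)
    (h.intervalIntegrable _ _)).symm

theorem phi_fl (y : Y) (t : ℝ) : Φ (fl v t y) = Φ y * Circle.exp (an v Φ y t) := by
  have h1 : ∀ t, HasDerivAt (fun t => (Φ (fl v t y) : ℂ) *
      Complex.exp (-(an v Φ y t : ℝ) * Complex.I)) 0 t := fun t => by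
    have h2 : HasDerivAt (fun t => (Φ (fl v t y) : ℂ))
        (dc (𝓡 3) (fun z => (Φ z : ℂ)) (fl v t y) (v (fl v t y))) t :=
      Flo26.hasDerivAt_comp_fl (f := fun z => (Φ z : ℂ)) hv (cpl hv (t, y))
        ((contMDiff_coe.comp hΦ _).mdifferentiableAt (by simp))
    rw [dc_eq (v := v) (hΦ (fl v t y))] at h2
    have h3 := h2.mul ((an_deriv hv hΦ y t).ofReal_comp.neg.mul_const Complex.I).cexp
    refine h3.congr_deriv ?_
    simp only [Pi.neg_apply]
    ring
  have h2 := is_const_of_deriv_eq_zero (fun t => (h1 t).differentiableAt) (fun t => (h1 t).deriv) t 0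
  simp only [Flo26.fl_zero hv, an_zero, Complex.ofReal_zero, neg_zero, zero_mul, Complex.exp_zero,
    mul_one] at h2
  ext
  rw [Circle.coe_mul, Circle.coe_exp, ← h2, mul_assoc, ← Complex.exp_add]
  simp

theorem an_mvt (y : Y) {a c : ℝ} (h : a < c) :
    ∃ t ∈ Ioo a c, an v Φ y c - an v Φ y a = rt Φ v (fl v t y) * (c - a) := by
  obtain ⟨t, ht, e⟩ := exists_hasDerivAt_eq_slope (an v Φ y) _ h
    (fun t _ => (an_deriv hv hΦ y t).continuousAt.continuousWithinAt) fun t _ => an_deriv hv hΦ y t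
  exact ⟨t, ht, by rw [e, div_mul_cancel₀ _ (sub_pos.2 h).ne']⟩

end an

/-- the principal angle -/
def al (Φ : Y → Circle) (y : Y) : ℝ := Complex.arg (Φ y)

/-- the lifted angle along the orbit of `y` -/
def ht (v : Vf Y) (Φ : Y → Circle) (y : Y) (t : ℝ) : ℝ := al Φ y + an v Φ y t

theorem exp_al (y : Y) : Circle.exp (al Φ y) = Φ y := Circle.exp_arg _

theorem al_eq {y : Y} {a : ℝ} (ha : |a| < Real.pi) (h : Φ y = Circle.exp a) : al Φ y = a := by
  rw [al, h]
  exact Circle.arg_exp (abs_lt.1 ha).1 (abs_lt.1 ha).2.le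

theorem exp_pi : (Circle.exp Real.pi : ℂ) = -1 := by simp

theorem exp_ne {a : ℝ} (ha : |a| < Real.pi) : (Circle.exp a : ℂ) ≠ -1 := fun h => by
  have h1 := Circle.arg_exp (abs_lt.1 ha).1 (abs_lt.1 ha).2.le
  rw [h, Complex.arg_neg_one] at h1
  exact (abs_lt.1 ha).2.ne h1.symm

theorem ne_iff {y : Y} : (Φ y : ℂ) ≠ -1 ↔ |al Φ y| < Real.pi := by
  refine ⟨fun h => abs_lt.2 ⟨Complex.neg_pi_lt_arg _, (Complex.arg_le_pi _).lt_of_ne fun e => h ?_⟩,
    fun h => exp_al (Φ := Φ) y ▸ exp_ne h⟩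
  rw [← exp_al (Φ := Φ), show al Φ y = Real.pi from e, exp_pi]

theorem al_cont (hΦ : SC Φ) {y : Y} (h : |al Φ y| < Real.pi) : ContinuousAt (al Φ) y :=
  (Complex.continuousAt_arg (Complex.mem_slitPlane_iff_arg.2
    ⟨(abs_lt.1 h).2.ne, Circle.coe_ne_zero _⟩)).comp (f := fun y => (Φ y : ℂ))
    (contMDiff_coe.comp hΦ).continuous.continuousAt

theorem ht_zero (y : Y) : ht v Φ y 0 = al Φ y := by rw [ht, an_zero, add_zero]

/-- the segment of the orbit avoids the level `-1` -/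
def Seg (v : Vf Y) (Φ : Y → Circle) (y : Y) (T : ℝ) : Prop :=
  |al Φ y| < Real.pi ∧ |ht v Φ y T| < Real.pi

variable {o : Fm 3 Y} {M : Set Y}

section bas

variable (h : Bas o v Φ M)
include h

theorem phi_ht (y : Y) (t : ℝ) : Φ (fl v t y) = Circle.exp (ht v Φ y t) := by
  rw [phi_fl h.smv h.smΦ, ht, Circle.exp_add, exp_al]

theorem an_mono (y : Y) : Monotone (an v Φ y) :=
  monotone_of_hasDerivAt_nonneg (an_deriv h.smv h.smΦ y) fun _ => h.nn _

theorem ht_mono (y : Y) : Monotone (ht v Φ y) := fun _ _ e => add_le_add_right (an_mono h y e) _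

theorem ht_cont (y : Y) : Continuous (ht v Φ y) :=
  continuous_const.add (continuous_iff_continuousAt.2 fun t =>
    (an_deriv h.smv h.smΦ y t).continuousAt)

theorem ht_contAt {y : Y} (hy : |al Φ y| < Real.pi) (t : ℝ) :
    ContinuousAt (fun z => ht v Φ z t) y :=
  (al_cont h.smΦ hy).add
    ((an_cont h.smv h.smΦ).comp (f := fun z : Y => (z, t)) (by fun_prop)).continuousAt

/-- off the plateau the angle is strictly increasing -/
theorem an_lt {y : Y} {T : ℝ} (hT : fl v T y ∉ M) (t : ℝ) :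
    (t < T → an v Φ y t < an v Φ y T) ∧ (T < t → an v Φ y T < an v Φ y t) := by
  have h1 : ∀ᶠ u in 𝓝 T, fl v u y ∉ M :=
    (cont_time h.smv y).continuousAt.eventually (h.cl.isOpen_compl.mem_nhds hT)
  obtain ⟨ε, hε, h2⟩ := Metric.eventually_nhds_iff.1 h1
  have h3 : ∀ a c, T - ε ≤ a → a < c → c ≤ T + ε → an v Φ y a < an v Φ y c := fun a c k1 k2 k3 => by
    obtain ⟨u, hu, e⟩ := an_mvt h.smv h.smΦ y k2
    have := mul_pos (h.pos _ (h2 (y := u) (by
      rw [Real.dist_eq, abs_lt]; constructor <;> linarith [hu.1, hu.2]))) (sub_pos.2 k2)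
    linarith
  refine ⟨fun k => (an_mono h y (le_max_left t (T - ε))).trans_lt
      (h3 _ _ (le_max_right _ _) (max_lt k (by linarith)) (by linarith)),
    fun k => (h3 _ _ (by linarith) (lt_min k (by linarith)) (min_le_right _ _)).trans_le
      (an_mono h y (min_le_left t (T + ε)))⟩

theorem an_inj {y : Y} {T t : ℝ} (hT : fl v T y ∉ M) (e : an v Φ y t = an v Φ y T) : t = T := by
  rcases lt_trichotomy t T with k | k | k
  · exact absurd e ((an_lt h hT t).1 k).ne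
  · exact k
  · exact absurd e ((an_lt h hT t).2 k).ne'

theorem Seg.mono {y : Y} {T t : ℝ} (s : Seg v Φ y T) (k : t ∈ uIcc 0 T) : Seg v Φ y t := by
  have h1 := (ht_mono h y).mapsTo_uIcc k
  rw [ht_zero] at h1
  exact ⟨s.1, abs_lt.2 (ordConnected_Ioo.uIcc_subset (abs_lt.1 s.1) (abs_lt.1 s.2) h1)⟩

theorem seg_iff {y : Y} {T : ℝ} : (∀ t ∈ uIcc 0 T, (Φ (fl v t y) : ℂ) ≠ -1) ↔ Seg v Φ y T := by
  refine ⟨fun k => ?_, fun s t k => by rw [phi_ht h]; exact exp_ne (s.mono h k).2⟩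
  have h0 : |al Φ y| < Real.pi := ne_iff.1 (by simpa [Flo26.fl_zero h.smv] using k 0 left_mem_uIcc)
  refine ⟨h0, ?_⟩
  have h1 := intermediate_value_uIcc (a := 0) (b := T) (ht_cont h y).continuousOn
  rw [ht_zero] at h1
  have h2 : ∀ c, (Circle.exp c : ℂ) = -1 → c ∉ uIcc (al Φ y) (ht v Φ y T) := fun c hc hm => by
    obtain ⟨t, k1, k2⟩ := h1 hm
    exact k t k1 (by rw [phi_ht h, k2, hc])
  rw [abs_lt] at h0 ⊢
  exact ⟨not_le.1 fun e => h2 (-Real.pi) (by simp)
      (mem_uIcc.2 (Or.inr ⟨e, h0.1.le⟩)),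
    not_le.1 fun e => h2 _ exp_pi (mem_uIcc.2 (Or.inl ⟨h0.2.le, e⟩))⟩

theorem Seg.al {y : Y} {T : ℝ} (s : Seg v Φ y T) : al Φ (fl v T y) = ht v Φ y T :=
  al_eq s.2 (phi_ht h y T)

theorem Seg.ht {y : Y} {T : ℝ} (s : Seg v Φ y T) (t : ℝ) :
    ht v Φ (fl v T y) t = ht v Φ y (t + T) := by
  rw [Hl33.ht, s.al h, Hl33.ht, Hl33.ht, an_add h.smv h.smΦ]
  ring

/-- a point off the plateau leaves the level `1` -/
theorem exists_ne {y : Y} (hy : y ∈ PP Φ M) : ∃ z, Φ z ≠ 1 := by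
  have h0 : al Φ y = 0 := al_eq (by simpa using Real.pi_pos) (by rw [hy.1, Circle.exp_zero])
  have h1 : ∀ᶠ t in 𝓝[>] (0 : ℝ), ht v Φ y t < Real.pi :=
    ((ht_cont h y).continuousAt.eventually (gt_mem_nhds (by
      rw [ht_zero, h0]; exact Real.pi_pos))).filter_mono nhdsWithin_le_nhds
  obtain ⟨t, k1, k2⟩ := (h1.and self_mem_nhdsWithin).exists
  have h2 := (an_lt h (T := 0) (y := y) (by rw [Flo26.fl_zero h.smv]; exact hy.2) t).2 k2
  have h3 : 0 < ht v Φ y t := by rw [ht, h0, zero_add]; rwa [an_zero] at h2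
  refine ⟨fl v t y, fun e => h3.ne' ?_⟩
  have s : Seg v Φ y t := ⟨by simpa [h0] using Real.pi_pos, by rwa [abs_of_pos h3]⟩
  rw [← s.al h]
  exact al_eq (by simpa using Real.pi_pos) (by rw [e, Circle.exp_zero])

theorem nonempty_R {oR : Fm 2 R} {b : R × ℝ → Y} (hb : Bx o v Φ oR b) (hP : (PP Φ M).Nonempty) :
    Nonempty R := by
  obtain ⟨y, hy⟩ := hP
  obtain ⟨z, hz⟩ := exists_ne h hy
  obtain ⟨p, -⟩ : z ∈ range b := hb.rg ▸ hz
  exact ⟨p.1⟩

end bas

/-- **SLAB** -/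
theorem slabStmt : SlabStmt := by
  intro Y o v Φ M h W _ W' hW' hc
  obtain ⟨c, hc0, h1⟩ := (isOpen_interior (s := W')).isClosed_compl.isCompact.exists_forall_le'
    (cont_rt h.smv h.smΦ).continuousOn (a := 0)
    fun y hy => h.pos y fun hm => hy (subset_interior_iff_mem_nhdsSet.2 hW' hm)
  have h2 : ∀ᶠ t in 𝓝 (0 : ℝ), ∀ z ∈ closure W', fl v t z ∈ interior W :=
    isClosed_closure.isCompact.eventually_forall_of_forall_eventually fun z hz =>
      (cont_fl h.smv).continuousAt.eventually (isOpen_interior.mem_nhds (by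
        simpa [Flo26.fl_zero h.smv] using hc hz))
  obtain ⟨τ, hτ, h3⟩ := Metric.eventually_nhds_iff.1 h2
  set ρ := min (c * τ / 3) 1 with hρ
  have hρ0 : 0 < ρ := lt_min (by positivity) one_pos
  have hρ1 : ρ < Real.pi := (min_le_right _ _).trans_lt (by linarith [Real.two_le_pi])
  have hρ2 : Real.cos ρ < 1 := by
    simpa using Real.cos_lt_cos_of_nonneg_of_le_pi le_rfl hρ1.le hρ0
  have hρ3 : -1 < Real.cos ρ := by
    simpa using Real.cos_lt_cos_of_nonneg_of_le_pi hρ0.le le_rfl hρ1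
  refine ⟨1 - Real.cos ρ, sub_pos.2 hρ2, fun y hy T hT => ?_⟩
  have s : Seg v Φ y T := (seg_iff h).1 fun t k e => by
    have := hT t k
    rw [e] at this
    simp at this
    linarith
  have h4 : ∀ t ∈ uIcc 0 T, |ht v Φ y t| ≤ ρ := fun t k => not_lt.1 fun e => by
    have h5 := hT t k
    have h6 := Real.cos_lt_cos_of_nonneg_of_le_pi hρ0.le (s.mono h k).2.le e
    rw [phi_ht h, Circle.coe_exp, Complex.exp_ofReal_mul_I_re] at h5
    rw [Real.cos_abs] at h6
    linarith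
  obtain ⟨t₀, ⟨k1, k2⟩, k3⟩ := (isCompact_uIcc.inter_right
    (isClosed_closure.preimage (cont_time h.smv y))).exists_isMinOn
    ⟨0, left_mem_uIcc (b := T), by simpa [Flo26.fl_zero h.smv] using subset_closure hy⟩
    (f := fun t => |T - t|) (by fun_prop)
  by_cases k4 : |T - t₀| < τ
  · have := h3 (y := T - t₀) (by simpa using k4) _ k2
    rw [← fl_add h.smv, sub_add_cancel] at this
    exact interior_subset this
  exfalso
  have h5 : ∀ t ∈ uIcc 0 T, |T - t| < |T - t₀| → c ≤ rt Φ v (fl v t y) := fun t k e =>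
    h1 _ fun hm => (k3 ⟨k, subset_closure (interior_subset hm)⟩).not_gt e
  have h6 := abs_le.1 (h4 _ k1)
  have h7 := abs_le.1 (h4 _ right_mem_uIcc)
  have h8 : ρ ≤ c * τ / 3 := min_le_left _ _
  have h9 := mul_pos hc0 hτ
  simp only [ht] at h6 h7
  rcases lt_trichotomy t₀ T with k | k | k
  · obtain ⟨t, k5, e⟩ := an_mvt h.smv h.smΦ y k
    rw [abs_of_pos (sub_pos.2 k), not_lt] at k4
    have := h5 t (ordConnected_uIcc.out k1 right_mem_uIcc ⟨k5.1.le, k5.2.le⟩) (by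
      rw [abs_of_pos (sub_pos.2 k), abs_of_pos (sub_pos.2 k5.2)]; linarith [k5.1])
    have := mul_le_mul this k4 hτ.le (hc0.le.trans this)
    linarith
  · exact k4 (by simpa [k] using hτ)
  · obtain ⟨t, k5, e⟩ := an_mvt h.smv h.smΦ y k
    rw [abs_of_neg (sub_neg.2 k), not_lt, neg_sub] at k4
    have := h5 t (ordConnected_uIcc.out right_mem_uIcc k1 ⟨k5.1.le, k5.2.le⟩) (by
      rw [abs_of_neg (sub_neg.2 k), abs_of_neg (sub_neg.2 k5.1)]; linarith [k5.2])
    have := mul_le_mul this k4 hτ.le (hc0.le.trans this)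
    linarith

end Crest.Agent.X212.Hl33
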